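import Vale.Agent.P219.H817.R7

/-!
# Radial functions on a domain isometric to a geodesic ball
-/

open MeasureTheory Set Filter Topology Matrix
open scoped ENNReal ContDiff

namespace Vale.Agent.P219.Co

variable {n : ℕ}

theorem h907_pd_eq {f : E n → ℝ} {x : E n} (h : DifferentiableAt ℝ f x) (i : Fin n) :
    pd i f x = fderiv ℝ f x (EuclideanSpace.single i 1) := h.lineDeriv_eq_fderiv

theorem h907_isOpen (R : ℝ) : IsOpen {y : E n | ∑ i, y i ^ 2 < R} :=
  isOpen_lt (by fun_prop) continuous_const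

theorem h907_sq_contDiff : ContDiff ℝ ∞ fun y : E n => ∑ i, y i ^ 2 := by
  refine ContDiff.sum fun i _ => ContDiff.pow ?_ 2
  exact (EuclideanSpace.proj i : E n →L[ℝ] ℝ).contDiff

/-- The isometry is smooth at the points of the ball. -/
theorem IsoData.contDiffAt {M : RiemMetric n} {K : ℝ} {Ω : Set (E n)} {r : ℝ}
    {φ : E n → E n} (h : IsoData M K Ω r φ) {y : E n} (hy : ∑ i, y i ^ 2 < sn √(-K) r ^ 2) :
    ContDiffAt ℝ ∞ φ y := by
  rw [contDiffAt_euclidean]
  intro k
  exact (h.smooth k).contDiffAt ((h907_isOpen _).mem_nhds hy)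

/-- The differential of the isometry is injective. -/
theorem IsoData.fderiv_inj {M : RiemMetric n} {K : ℝ} (hK : K ≤ 0) {Ω : Set (E n)} {r : ℝ}
    {φ : E n → E n} (h : IsoData M K Ω r φ) {y : E n} (hy : ∑ i, y i ^ 2 < sn √(-K) r ^ 2)
    {u : E n} (hu : fderiv ℝ φ y u = 0) : u = 0 := by
  have hd : DifferentiableAt ℝ φ y := (h.contDiffAt hy).differentiableAt (by simp)
  have hpd : ∀ i k, pd i (fun z => φ z k) y =
      (fderiv ℝ φ y (EuclideanSpace.single i 1)) k := by
    intro i k
    have h6 : HasFDerivAt (fun z => φ z k)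
        ((EuclideanSpace.proj k : E n →L[ℝ] ℝ).comp (fderiv ℝ φ y)) y :=
      (EuclideanSpace.proj k : E n →L[ℝ] ℝ).hasFDerivAt.comp y hd.hasFDerivAt
    rw [h907_pd_eq h6.differentiableAt, h6.fderiv]
    rfl
  have hsum : ∀ k, ∑ i, u i * pd i (fun z => φ z k) y = 0 := by
    intro k
    have h1 : u = ∑ i, u i • (EuclideanSpace.single i (1 : ℝ) : E n) := by
      ext j
      rw [WithLp.ofLp_sum, Finset.sum_apply]
      simp [PiLp.single_apply]
    have h2 : (fderiv ℝ φ y u) k = ∑ i, u i * pd i (fun z => φ z k) y := by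
      conv_lhs => rw [h1]
      rw [map_sum, WithLp.ofLp_sum, Finset.sum_apply]
      refine Finset.sum_congr rfl fun i _ => ?_
      rw [map_smul, PiLp.smul_apply, smul_eq_mul, hpd]
    rw [← h2, hu]
    rfl
  have h3 : ∑ i, ∑ j, u i * u j * (∑ k, ∑ l, M.g (φ y) k l *
      pd i (fun z => φ z k) y * pd j (fun z => φ z l) y) = 0 := by
    have h4 : ∀ i, ∑ j, u i * u j * (∑ k, ∑ l, M.g (φ y) k l *
        pd i (fun z => φ z k) y * pd j (fun z => φ z l) y) =
        ∑ k, ∑ l, M.g (φ y) k l * (u i * pd i (fun z => φ z k) y) *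
          (∑ j, u j * pd j (fun z => φ z l) y) := by
      intro i
      simp only [Finset.mul_sum]
      rw [Finset.sum_comm]
      refine Finset.sum_congr rfl fun k _ => ?_
      rw [Finset.sum_comm]
      refine Finset.sum_congr rfl fun l _ => Finset.sum_congr rfl fun j _ => ?_
      ring
    rw [Finset.sum_congr rfl fun i _ => h4 i]
    simp only [hsum, mul_zero, Finset.sum_const_zero]
  have h5 : ∑ i, ∑ j, u i * u j * (∑ k, ∑ l, M.g (φ y) k l *
      pd i (fun z => φ z k) y * pd j (fun z => φ z l) y) =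
      (∑ i, u i ^ 2) + K * (∑ i, u i * y i) ^ 2 / (1 - K * ∑ m, y m ^ 2) := by
    have h6 : ∀ i, ∑ j, u i * u j * (∑ k, ∑ l, M.g (φ y) k l *
        pd i (fun z => φ z k) y * pd j (fun z => φ z l) y) =
        u i ^ 2 + K * (u i * y i) * (∑ j, u j * y j) / (1 - K * ∑ m, y m ^ 2) := by
      intro i
      have h7 : ∀ j, u i * u j * (∑ k, ∑ l, M.g (φ y) k l *
          pd i (fun z => φ z k) y * pd j (fun z => φ z l) y) =
          (if i = j then u i * u j else 0) +
            K * (u i * y i) / (1 - K * ∑ m, y m ^ 2) * (u j * y j) := by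
        intro j
        rw [h.metric y hy i j]
        split_ifs <;> ring
      rw [Finset.sum_congr rfl fun j _ => h7 j, Finset.sum_add_distrib, ← Finset.mul_sum,
        Finset.sum_ite_eq]
      simp only [Finset.mem_univ, if_true]
      ring
    rw [Finset.sum_congr rfl fun i _ => h6 i, Finset.sum_add_distrib, ← Finset.sum_div,
      ← Finset.sum_mul, ← Finset.mul_sum]
    ring
  rw [h5] at h3
  have hcs : (∑ i, u i * y i) ^ 2 ≤ (∑ i, u i ^ 2) * ∑ i, y i ^ 2 :=
    Finset.sum_mul_sq_le_sq_mul_sq _ _ _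
  have hy0 : 0 ≤ ∑ i, y i ^ 2 := Finset.sum_nonneg fun i _ => sq_nonneg _
  have hu0 : 0 ≤ ∑ i, u i ^ 2 := Finset.sum_nonneg fun i _ => sq_nonneg _
  have hq : 0 < 1 - K * ∑ m, y m ^ 2 := by nlinarith
  have h8 : (∑ i, u i ^ 2) * (1 - K * ∑ m, y m ^ 2) + K * (∑ i, u i * y i) ^ 2 = 0 := by
    have := congrArg (fun t => t * (1 - K * ∑ m, y m ^ 2)) h3
    simp only [zero_mul] at this
    rw [← this]
    field_simp
  have h9 : ∑ i, u i ^ 2 ≤ 0 := by nlinarith
  have h10 := (Finset.sum_eq_zero_iff_of_nonneg fun i _ => sq_nonneg (u i)).1 (le_antisymm h9 hu0)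
  ext i
  have := h10 i (Finset.mem_univ i)
  simpa using this

/-- Radial functions supported inside the ball, transported to the domain. -/
theorem IsoData.cutoff {M : RiemMetric n} {K : ℝ} (hK : K ≤ 0) {Ω : Set (E n)} {r : ℝ}
    {φ : E n → E n} (h : IsoData M K Ω r φ) {Θ : ℝ → ℝ} (hΘ : ContDiff ℝ ∞ Θ) {s : ℝ}
    (hs : s < sn √(-K) r ^ 2) (h0 : ∀ t, s ≤ t → Θ t = 0) :
    ∃ f : E n → ℝ, ContDiff ℝ 1 f ∧ HasCompactSupport f ∧ (∀ x, x ∉ Ω → f x = 0) ∧
      ∀ y, ∑ i, y i ^ 2 < sn √(-K) r ^ 2 → f (φ y) = Θ (∑ i, y i ^ 2) := by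
  classical
  set B : Set (E n) := {y | ∑ i, y i ^ 2 < sn √(-K) r ^ 2} with hB
  have hBo : IsOpen B := h907_isOpen _
  set ψ : E n → E n := Function.invFunOn φ B with hψ
  have hψm : ∀ x ∈ Ω, ψ x ∈ B ∧ φ (ψ x) = x := by
    intro x hx
    rw [← h.image] at hx
    exact ⟨Function.invFunOn_mem hx, Function.invFunOn_eq hx⟩
  have hφm : ∀ y ∈ B, φ y ∈ Ω := fun y hy => by
    rw [← h.image]
    exact ⟨y, hy, rfl⟩
  have hψφ : ∀ y ∈ B, ψ (φ y) = y := fun y hy =>
    h.inj (hψm _ (hφm y hy)).1 hy (hψm _ (hφm y hy)).2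
  -- the compact set outside of which the function vanishes
  set C : Set (E n) := φ '' {y | ∑ i, y i ^ 2 ≤ s} with hC
  have hCB : {y : E n | ∑ i, y i ^ 2 ≤ s} ⊆ B := fun y hy => lt_of_le_of_lt hy hs
  have hφc : ContinuousOn φ B := fun y hy => (h.contDiffAt hy).continuousAt.continuousWithinAt
  have hCc : IsCompact C := by
    refine IsCompact.image_of_continuousOn ?_ (hφc.mono hCB)
    refine Metric.isCompact_of_isClosed_isBounded
      (isClosed_le h907_sq_contDiff.continuous continuous_const) ?_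
    refine (Metric.isBounded_closedBall (x := (0 : E n)) (r := √s)).subset fun y hy => ?_
    have h1 : ‖y‖ ^ 2 = ∑ i, y i ^ 2 := by
      rw [EuclideanSpace.norm_sq_eq]
      exact Finset.sum_congr rfl fun m _ => by rw [Real.norm_eq_abs, sq_abs]
    rw [Metric.mem_closedBall, dist_zero_right]
    refine Real.le_sqrt_of_sq_le ?_
    rw [h1]
    exact hy
  set f : E n → ℝ := fun x => if x ∈ Ω then Θ (∑ i, ψ x i ^ 2) else 0 with hf
  have hfC : ∀ x, x ∉ C → f x = 0 := by
    intro x hx
    simp only [hf]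
    split_ifs with hxΩ
    · refine h0 _ ?_
      by_contra hlt
      push Not at hlt
      exact hx ⟨ψ x, hlt.le, (hψm x hxΩ).2⟩
    · rfl
  refine ⟨f, contDiff_iff_contDiffAt.2 fun x => ?_, HasCompactSupport.intro hCc hfC,
    fun x hx => if_neg hx, fun y hy => ?_⟩
  · by_cases hx : x ∈ Ω
    · obtain ⟨hyB, hyx⟩ := hψm x hx
      set y : E n := ψ x with hy
      have hcd : ContDiffAt ℝ ∞ φ y := h.contDiffAt hyB
      have hinj : Function.Injective (fderiv ℝ φ y) := by
        rw [injective_iff_map_eq_zero]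
        exact fun u hu => h.fderiv_inj hK hyB hu
      let e : E n ≃L[ℝ] E n :=
        (LinearEquiv.ofInjectiveEndo (fderiv ℝ φ y).toLinearMap hinj).toContinuousLinearEquiv
      have he : (e : E n →L[ℝ] E n) = fderiv ℝ φ y := by
        ext u
        rfl
      have hfd : HasFDerivAt φ (e : E n →L[ℝ] E n) y := by
        rw [he]
        exact (hcd.differentiableAt (by simp)).hasFDerivAt
      have hli := hcd.to_localInverse hfd (by simp)
      set g := hcd.localInverse hfd (by simp) with hg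
      have hgx : g x = y := by
        rw [← hyx]
        exact hcd.localInverse_apply_image hfd (by simp)
      have hright : ∀ᶠ z in 𝓝 x, φ (g z) = z := by
        have h1 := (hcd.hasStrictFDerivAt' hfd (by simp)).eventually_right_inverse
        rw [hyx] at h1
        exact h1
      rw [hyx] at hli
      have hgB : ∀ᶠ z in 𝓝 x, g z ∈ B := by
        refine hli.continuousAt.eventually_mem (hBo.mem_nhds ?_)
        rw [hgx]
        exact hyB
      have heq : f =ᶠ[𝓝 x] fun z => Θ (∑ i, g z i ^ 2) := by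
        filter_upwards [hright, hgB] with z hz1 hz2
        have hzΩ : z ∈ Ω := by
          rw [← hz1]
          exact hφm _ hz2
        have hψz : ψ z = g z := by
          conv_lhs => rw [← hz1]
          exact hψφ _ hz2
        simp only [hf]
        rw [if_pos hzΩ, hψz]
      refine ContDiffAt.congr_of_eventuallyEq ?_ heq
      have h2 : ContDiffAt ℝ ∞ (fun z => Θ (∑ i, g z i ^ 2)) x :=
        (hΘ.comp h907_sq_contDiff).contDiffAt.comp x hli
      exact h2.of_le (by exact_mod_cast le_top)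
    · have hxC : x ∉ C := by
        rintro ⟨y, hy, rfl⟩
        exact hx (hφm y (hCB hy))
      have heq : f =ᶠ[𝓝 x] fun _ => 0 := by
        filter_upwards [hCc.isClosed.isOpen_compl.mem_nhds hxC] with z hz
        exact hfC z hz
      exact contDiffAt_const.congr_of_eventuallyEq heq
  · simp only [hf]
    rw [if_pos (hφm y hy), hψφ y hy]

end Vale.Agent.P219.Co
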