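import Vale.Agent.P219.H817.T13

/-!
# Scaling of the De Giorgi perimeter, and the rigidity of balls from the boundary sphere
-/

open MeasureTheory Matrix Set Metric
open scoped ENNReal ContDiff

namespace Vale.Agent.P219.Co

theorem h907_divg_scale {n : ℕ} {M : RiemMetric n} {b : ℝ} (hb : 0 < b) {c : ℝ} (hc : 0 < c)
    (hbc : c = b ^ 2) (X : E n → Fin n → ℝ) (x : E n) :
    divg (scale M c hc) X x = divg M X x := by
  unfold divg
  have h1 : ∀ i, pd i (fun y => volDensity (scale M c hc) y * X y i) x =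
      b ^ n * pd i (fun y => volDensity M y * X y i) x := by
    intro i
    have h2 : (fun y => volDensity (scale M c hc) y * X y i) =
        fun y => b ^ n * (volDensity M y * X y i) := by
      funext y
      rw [scale_volDensity hb hc hbc, mul_assoc]
    rw [h2]
    exact scale_pd_const_mul (b ^ n) i _ x
  rw [Finset.sum_congr rfl fun i _ => h1 i, ← Finset.mul_sum, scale_volDensity hb hc hbc]
  have hbn : b ^ n ≠ 0 := pow_ne_zero n hb.ne'
  rw [mul_inv, mul_mul_mul_comm, inv_mul_cancel₀ hbn, one_mul]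

theorem h907_divg_smul {n : ℕ} {M : RiemMetric n} (b : ℝ) (X : E n → Fin n → ℝ) (x : E n) :
    divg M (fun y i => b * X y i) x = b * divg M X x := by
  unfold divg
  have h1 : ∀ i, pd i (fun y => volDensity M y * (b * X y i)) x =
      b * pd i (fun y => volDensity M y * X y i) x := by
    intro i
    have h2 : (fun y => volDensity M y * (b * X y i)) =
        fun y => b * (volDensity M y * X y i) := by
      funext y
      ring
    rw [h2]
    exact scale_pd_const_mul b i _ x
  rw [Finset.sum_congr rfl fun i _ => h1 i, ← Finset.mul_sum]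
  ring

theorem h907_testField {n : ℕ} {M : RiemMetric n} {b : ℝ} {c : ℝ} (hc : 0 < c)
    (hbc : c = b ^ 2) {X : E n → Fin n → ℝ} (h : TestField (scale M c hc) X) :
    TestField M (fun y i => b * X y i) := by
  refine ⟨fun i => ?_, ?_, fun x => ?_⟩
  · have h1 := h.smooth i
    unfold Smooth at h1 ⊢
    exact contDiff_const.mul h1
  · have h1 : HasCompactSupport fun y => (fun v : Fin n → ℝ => fun i => b * v i) (X y) :=
      h.compact.comp_left (g := fun v : Fin n → ℝ => fun i => b * v i) (by
        funext i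
        simp)
    exact h1
  · have h1 := h.le_one x
    rw [scale_form] at h1
    have h2 : (fun i => b * X x i) = b • X x := rfl
    rw [h2, Matrix.mulVec_smul, dotProduct_smul, smul_dotProduct, smul_eq_mul, smul_eq_mul]
    rw [hbc] at h1
    linarith [h1, show b * (b * (X x ⬝ᵥ M.g x *ᵥ X x)) = b ^ 2 * (X x ⬝ᵥ M.g x *ᵥ X x) by ring]

theorem h907_testField' {n : ℕ} {M : RiemMetric n} {b : ℝ} (hb : 0 < b) {c : ℝ} (hc : 0 < c)
    (hbc : c = b ^ 2) {X : E n → Fin n → ℝ} (h : TestField M X) :
    TestField (scale M c hc) (fun y i => b⁻¹ * X y i) := by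
  refine ⟨fun i => ?_, ?_, fun x => ?_⟩
  · have h1 := h.smooth i
    unfold Smooth at h1 ⊢
    exact contDiff_const.mul h1
  · have h1 : HasCompactSupport fun y => (fun v : Fin n → ℝ => fun i => b⁻¹ * v i) (X y) :=
      h.compact.comp_left (g := fun v : Fin n → ℝ => fun i => b⁻¹ * v i) (by
        funext i
        simp)
    exact h1
  · have h1 := h.le_one x
    rw [scale_form]
    have h2 : (fun i => b⁻¹ * X x i) = b⁻¹ • X x := rfl
    rw [h2, Matrix.mulVec_smul, dotProduct_smul, smul_dotProduct, smul_eq_mul, smul_eq_mul, hbc]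
    have h3 : b ^ 2 * (b⁻¹ * (b⁻¹ * (X x ⬝ᵥ M.g x *ᵥ X x))) = X x ⬝ᵥ M.g x *ᵥ X x := by
      field_simp
    rw [h3]
    exact h1

theorem h907_integral {n : ℕ} (hn : 1 ≤ n) {M : RiemMetric n} {b : ℝ} (hb : 0 < b) {c : ℝ}
    (hc : 0 < c) (hbc : c = b ^ 2) (S : Set (E n)) (X : E n → Fin n → ℝ) :
    ∫ x in S, divg (scale M c hc) X x * volDensity (scale M c hc) x ∂leb n =
      b ^ (n - 1) * ∫ x in S, divg M (fun y i => b * X y i) x * volDensity M x ∂leb n := by
  rw [← integral_const_mul]
  congr 1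
  funext x
  rw [h907_divg_scale hb hc hbc, h907_divg_smul, scale_volDensity hb hc hbc]
  obtain ⟨m, rfl⟩ : ∃ m, n = m + 1 := ⟨n - 1, by omega⟩
  rw [Nat.add_sub_cancel, pow_succ]
  ring

/-- The perimeter for the metric `b² g` is `b^{n-1}` times the perimeter for `g`. -/
theorem scale_perimeter {n : ℕ} (hn : 1 ≤ n) {M : RiemMetric n} {b : ℝ} (hb : 0 < b) {c : ℝ}
    (hc : 0 < c) (hbc : c = b ^ 2) (S : Set (E n)) :
    perimeter (scale M c hc) S = ENNReal.ofReal (b ^ (n - 1)) * perimeter M S := by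
  have hbp : 0 ≤ b ^ (n - 1) := pow_nonneg hb.le _
  apply le_antisymm
  · unfold perimeter
    refine iSup₂_le fun X hX => ?_
    rw [h907_integral hn hb hc hbc S X, ENNReal.ofReal_mul hbp]
    gcongr
    exact le_iSup₂_of_le _ (h907_testField hc hbc hX) le_rfl
  · unfold perimeter
    simp only [ENNReal.mul_iSup]
    refine iSup₂_le fun X hX => ?_
    refine le_iSup₂_of_le _ (h907_testField' hb hc hbc hX) ?_
    rw [h907_integral hn hb hc hbc S, ENNReal.ofReal_mul hbp]
    have h2 : (fun (y : E n) (i : Fin n) => b * (b⁻¹ * X y i)) = X := by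
      funext y i
      field_simp
    rw [h2]

/-- Rigidity from the boundary sphere, `K = 0`. -/
theorem iso_center_flat {n : ℕ} (hn : 2 ≤ n) (M : RiemMetric n) (e : Fin n → E n → E n)
    (he : Vale.Agent.P219.TriangularFrame (old M) e) (hs : Vale.Agent.P219.SecLE (old M) 0)
    (F : CH.GFlow (old M).g) (D : SmoothDomain n) {r : ℝ} (hr : 0 < r) (c : E n)
    (hfr : ∀ q ∈ frontier D.carrier, ‖(CH.toGeo (old M) e he hs F).lg c q‖ = r)
    (hV : riemVol M D.carrier = ENNReal.ofReal (modelVol n 0 r)) :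
    IsometricToBallK M 0 D r := by
  have hV' : Vale.Agent.P219.riemVol (old M) (oldDomain D).carrier =
      ENNReal.ofReal (Vale.Agent.P219.modelVol n 0 r) := by
    rw [riemVol_old, modelVol_old]
    exact hV
  obtain ⟨φ, h1, h2, h3, h4⟩ := CH.rig_center_flat hn (old M) e he hs F (oldDomain D) hr c
    hfr hV'
  have hsn : sn √(-0) r = r := by
    unfold sn
    rw [neg_zero, Real.sqrt_zero, if_pos rfl]
  have hball : {y : E n | ∑ i, y i ^ 2 < sn √(-0) r ^ 2} = ball 0 r := by
    rw [hsn, rcc_ball_eq hr]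
  refine ⟨φ, fun k => ?_, ?_, ?_, ?_⟩
  · exact ((EuclideanSpace.proj k : E n →L[ℝ] ℝ).contDiff.comp h1).contDiffOn
  · rw [hball]; exact h2
  · rw [hball]; exact h3
  · intro x hx i j
    have hx' : x ∈ ball (0 : E n) r := by rw [← hball]; exact hx
    rw [rcc_pull M (h1.differentiable (by simp) x), h4 x hx']
    simp [basisVec, EuclideanSpace.inner_single_left, PiLp.single_apply]

/-- Rigidity from the boundary sphere, `K = -1`. -/
theorem iso_center_one {n : ℕ} (hn : 2 ≤ n) (M : RiemMetric n) (e : Fin n → E n → E n)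
    (he : Vale.Agent.P219.TriangularFrame (old M) e) (hs : Vale.Agent.P219.SecLE (old M) (-1))
    (F : CH.GFlow (old M).g) (D : SmoothDomain n) {r : ℝ} (hr : 0 < r) (c : E n)
    (hfr : ∀ q ∈ frontier D.carrier,
      ‖(CH.toGeo (old M) e he (CH.secLE_zero hs) F).lg c q‖ = r)
    (hV : riemVol M D.carrier = ENNReal.ofReal (modelVol n (-1) r)) :
    IsometricToBallK M (-1) D r := by
  have hV' : Vale.Agent.P219.riemVol (old M) (oldDomain D).carrier =
      ENNReal.ofReal (Vale.Agent.P219.modelVol n (-1) r) := by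
    rw [riemVol_old, modelVol_old]
    exact hV
  obtain ⟨φ, h1, h2, h3, h4⟩ := CH.rig_center_hyp hn (old M) e he hs F (oldDomain D) hr c
    hfr hV'
  have hsr : 0 < Real.sinh r := Real.sinh_pos_iff.2 hr
  have hball : {y : E n | ∑ i, y i ^ 2 < sn √(-(-1)) r ^ 2} = ball 0 (Real.sinh r) := by
    rw [scale_sn_one, rcc_ball_eq hsr]
  refine ⟨φ, fun k => ?_, ?_, ?_, ?_⟩
  · rw [hball]
    exact (EuclideanSpace.proj k : E n →L[ℝ] ℝ).contDiff.comp_contDiffOn h1
  · rw [hball]; exact h2
  · rw [hball]; exact h3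
  · intro x hx i j
    have hx' : x ∈ ball (0 : E n) (Real.sinh r) := by rw [← hball]; exact hx
    have hd : DifferentiableAt ℝ φ x :=
      (h1.contDiffAt (isOpen_ball.mem_nhds hx')).differentiableAt (by simp)
    rw [rcc_pull M hd, h4 x hx']
    have hn2 : ‖x‖ ^ 2 = ∑ m, x m ^ 2 := by
      rw [EuclideanSpace.norm_sq_eq]
      exact Finset.sum_congr rfl fun m _ => by rw [Real.norm_eq_abs, sq_abs]
    have hij : inner ℝ (basisVec i) (basisVec j) = (if i = j then 1 else 0 : ℝ) := by
      rcases eq_or_ne i j with rfl | hij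
      · simp [basisVec, EuclideanSpace.inner_single_right]
      · simp [basisVec, EuclideanSpace.inner_single_right, hij, hij.symm]
    have hx1 : ∀ k, inner ℝ x (basisVec k) = x k := by
      intro k
      simp [basisVec, EuclideanSpace.inner_single_right]
    rw [hn2, hij, hx1, hx1]
    ring

end Vale.Agent.P219.Co
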