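import Vale.Agent.P219.H817.T13

/-!
# Rigidity of plane domains from the chord relations at one boundary point
-/

open MeasureTheory Matrix Set Metric
open scoped ENNReal ContDiff

namespace Vale.Agent.P219.CH

/-- The chord relation of the flat case in polynomial form. -/
theorem h907_chord_flat {r : ℝ} (hr : 0 < r) {N v : E 2} (hv0 : v ≠ 0) {d : ℝ}
    (h1 : N2.rB 0 (N2.ct 0 r) N v = 0) (h2 : ‖v‖ * d = TPH.sn 0 ‖v‖) :
    2 * r * inner ℝ v N = ‖v‖ ^ 2 ∧ |d| = 1 := by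
  have hvp : 0 < ‖v‖ := norm_pos_iff.2 hv0
  unfold N2.rB N2.ct N2.rs at h1
  rw [TPH.h1_sn_z] at h1 h2
  simp only [TPH.cs, zero_mul, Real.cosh_zero] at h1 h2
  constructor
  · have hpos : 0 < max 0 (inner ℝ N (‖v‖⁻¹ • v)) := by
      have : 0 < 1 / r * ‖v‖ := by positivity
      linarith only [this, h1]
    have hmax : max 0 (inner ℝ N (‖v‖⁻¹ • v)) = inner ℝ N (‖v‖⁻¹ • v) := by
      rcases max_choice 0 (inner ℝ N (‖v‖⁻¹ • v)) with h3 | h3
      · rw [h3] at hpos
        exact absurd hpos (lt_irrefl _)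
      · exact h3
    rw [hmax, real_inner_smul_right] at h1
    rw [real_inner_comm]
    have h4 : ‖v‖⁻¹ * inner ℝ N v * (1 + 1) = 1 / r * ‖v‖ := by linarith
    field_simp at h4
    nlinarith
  · have h3 : ‖v‖ * d = ‖v‖ * 1 := by rw [h2, mul_one]
    rw [mul_left_cancel₀ hvp.ne' h3, abs_one]

/-- The chord relation of the hyperbolic case in polynomial form. -/
theorem h907_chord_hyp {r : ℝ} (hr : 0 < r) {N v : E 2} (hv0 : v ≠ 0) {d : ℝ} (hd : 0 < d)
    (h1 : N2.rB 1 (N2.ct 1 r) N v = 0) (h2 : ‖v‖ * d = TPH.sn 1 ‖v‖) :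
    Real.sinh (‖v‖ / 2) * Real.cosh r * ‖v‖ =
      inner ℝ v N * (Real.cosh (‖v‖ / 2) * Real.sinh r) ∧
    |d| * ‖v‖ ^ (2 - 1) = Real.sinh ‖v‖ ^ (2 - 1) := by
  have hvp : 0 < ‖v‖ := norm_pos_iff.2 hv0
  have hsn : ∀ x : ℝ, TPH.sn 1 x = Real.sinh x := fun x => by simp [TPH.sn]
  unfold N2.rB N2.ct N2.rs at h1
  rw [hsn, hsn] at h1
  rw [hsn] at h2
  simp only [TPH.cs, one_mul] at h1
  constructor
  · have hsr : 0 < Real.sinh r := Real.sinh_pos_iff.2 hr
    have hsv : 0 < Real.sinh ‖v‖ := Real.sinh_pos_iff.2 hvp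
    have hcr := Real.cosh_pos r
    have hcv := Real.cosh_pos ‖v‖
    have hpos : 0 < max 0 (inner ℝ N (‖v‖⁻¹ • v)) := by
      have h3 : 0 < Real.cosh r / Real.sinh r * Real.sinh ‖v‖ := by positivity
      have h4 : 0 < max 0 (inner ℝ N (‖v‖⁻¹ • v)) * (1 + Real.cosh ‖v‖) := by linarith only [h3, h1]
      exact (pos_iff_pos_of_mul_pos h4).2 (by linarith only [hcv])
    have hmax : max 0 (inner ℝ N (‖v‖⁻¹ • v)) = inner ℝ N (‖v‖⁻¹ • v) := by
      rcases max_choice 0 (inner ℝ N (‖v‖⁻¹ • v)) with h3 | h3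
      · rw [h3] at hpos
        exact absurd hpos (lt_irrefl _)
      · exact h3
    rw [hmax, real_inner_smul_right] at h1
    rw [real_inner_comm]
    have e1 : Real.cosh ‖v‖ = 2 * Real.cosh (‖v‖ / 2) ^ 2 - 1 := by
      have h3 := Real.cosh_two_mul (‖v‖ / 2)
      rw [show 2 * (‖v‖ / 2) = ‖v‖ by ring] at h3
      have h4 := Real.cosh_sq (‖v‖ / 2)
      linarith
    have e2 : Real.sinh ‖v‖ = 2 * Real.sinh (‖v‖ / 2) * Real.cosh (‖v‖ / 2) := by
      have h3 := Real.sinh_two_mul (‖v‖ / 2)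
      rwa [show 2 * (‖v‖ / 2) = ‖v‖ by ring] at h3
    have hc2 := Real.cosh_pos (‖v‖ / 2)
    rw [e1, e2] at h1
    have h5 : ‖v‖⁻¹ * inner ℝ N v * (2 * Real.cosh (‖v‖ / 2) ^ 2) =
        Real.cosh r / Real.sinh r * (2 * Real.sinh (‖v‖ / 2) * Real.cosh (‖v‖ / 2)) := by
      linarith
    field_simp at h5
    nlinarith
  · have h3 : |d| = d := abs_of_pos hd
    simp only [Nat.add_one_sub_one, pow_one]
    rw [h3, mul_comm]
    exact h2

end Vale.Agent.P219.CH

namespace Vale.Agent.P219.Co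

/-- Rigidity from the chord relations at one boundary point, `n = 2`, `K = 0`. -/
theorem iso_chord_flat (M : RiemMetric 2) (e : Fin 2 → E 2 → E 2)
    (he : Vale.Agent.P219.TriangularFrame (old M) e) (hs : Vale.Agent.P219.SecLE (old M) 0)
    (F : CH.GFlow (old M).g) (D : SmoothDomain 2) {r : ℝ} (hr : 0 < r) {p N : E 2} (hN : ‖N‖ = 1)
    (hfr : ∀ q ∈ frontier D.carrier, q ≠ p →
      N2.rB 0 (N2.ct 0 r) N ((CH.toGeo (old M) e he hs F).lg p q) = 0 ∧
      ‖(CH.toGeo (old M) e he hs F).lg p q‖ *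
        ((CH.toGeo (old M) e he hs F).T p ((CH.toGeo (old M) e he hs F).lg p q)).det =
        TPH.sn 0 ‖(CH.toGeo (old M) e he hs F).lg p q‖)
    (hV : riemVol M D.carrier = ENNReal.ofReal (modelVol 2 0 r)) : IsometricToBallK M 0 D r := by
  have hV' : Vale.Agent.P219.riemVol (old M) (oldDomain D).carrier =
      ENNReal.ofReal (Vale.Agent.P219.modelVol 2 0 r) := by
    rw [riemVol_old, modelVol_old]
    exact hV
  obtain ⟨φ, h1, h2, h3, h4⟩ := CH.hfr_flat_phi le_rfl (old M) e he hs F (oldDomain D) hr hN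
    (fun q hq hqp => by
      obtain ⟨h1, h2⟩ := hfr q hq hqp
      refine CH.h907_chord_flat hr (fun h0 => hqp ?_) h1 h2
      have h3 := (CH.toGeo (old M) e he hs F).ex_lg p q
      rw [h0, (CH.toGeo (old M) e he hs F).ex_zero] at h3
      exact h3.symm) hV'
  have hsn : sn √(-0) r = r := by
    unfold sn
    rw [neg_zero, Real.sqrt_zero, if_pos rfl]
  have hball : {y : E 2 | ∑ i, y i ^ 2 < sn √(-0) r ^ 2} = ball 0 r := by
    rw [hsn, rcc_ball_eq hr]
  refine ⟨φ, fun k => ?_, ?_, ?_, ?_⟩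
  · exact ((EuclideanSpace.proj k : E 2 →L[ℝ] ℝ).contDiff.comp h1).contDiffOn
  · rw [hball]; exact h2
  · rw [hball]; exact h3
  · intro x hx i j
    have hx' : x ∈ ball (0 : E 2) r := by rw [← hball]; exact hx
    rw [rcc_pull M (h1.differentiable (by simp) x), h4 x hx']
    simp [basisVec, EuclideanSpace.inner_single_left, PiLp.single_apply]

/-- Rigidity from the chord relations at one boundary point, `n = 2`, `K = -1`. -/
theorem iso_chord_one (M : RiemMetric 2) (e : Fin 2 → E 2 → E 2)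
    (he : Vale.Agent.P219.TriangularFrame (old M) e) (hs : Vale.Agent.P219.SecLE (old M) (-1))
    (F : CH.GFlow (old M).g) (D : SmoothDomain 2) {r : ℝ} (hr : 0 < r) {p N : E 2} (hN : ‖N‖ = 1)
    (hfr : ∀ q ∈ frontier D.carrier, q ≠ p →
      N2.rB 1 (N2.ct 1 r) N ((CH.toGeo (old M) e he (CH.secLE_zero hs) F).lg p q) = 0 ∧
      ‖(CH.toGeo (old M) e he (CH.secLE_zero hs) F).lg p q‖ *
        ((CH.toGeo (old M) e he (CH.secLE_zero hs) F).T p
          ((CH.toGeo (old M) e he (CH.secLE_zero hs) F).lg p q)).det =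
        TPH.sn 1 ‖(CH.toGeo (old M) e he (CH.secLE_zero hs) F).lg p q‖)
    (hV : riemVol M D.carrier = ENNReal.ofReal (modelVol 2 (-1) r)) :
    IsometricToBallK M (-1) D r := by
  have hV' : Vale.Agent.P219.riemVol (old M) (oldDomain D).carrier =
      ENNReal.ofReal (Vale.Agent.P219.modelVol 2 (-1) r) := by
    rw [riemVol_old, modelVol_old]
    exact hV
  obtain ⟨φ, h1, h2, h3, h4⟩ := CH.hfr_hyp_phi le_rfl (old M) e he hs F (oldDomain D) hr hN
    (fun q hq hqp => by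
      obtain ⟨h1, h2⟩ := hfr q hq hqp
      refine CH.h907_chord_hyp hr (fun h0 => hqp ?_) (TPH.det_T_pos _ p _) h1 h2
      have h3 := (CH.toGeo (old M) e he (CH.secLE_zero hs) F).ex_lg p q
      rw [h0, (CH.toGeo (old M) e he (CH.secLE_zero hs) F).ex_zero] at h3
      exact h3.symm) hV'
  have hsr : 0 < Real.sinh r := Real.sinh_pos_iff.2 hr
  have hball : {y : E 2 | ∑ i, y i ^ 2 < sn √(-(-1)) r ^ 2} = ball 0 (Real.sinh r) := by
    rw [scale_sn_one, rcc_ball_eq hsr]
  refine ⟨φ, fun k => ?_, ?_, ?_, ?_⟩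
  · rw [hball]
    exact (EuclideanSpace.proj k : E 2 →L[ℝ] ℝ).contDiff.comp_contDiffOn h1
  · rw [hball]; exact h2
  · rw [hball]; exact h3
  · intro x hx i j
    have hx' : x ∈ ball (0 : E 2) (Real.sinh r) := by rw [← hball]; exact hx
    have hd : DifferentiableAt ℝ φ x :=
      (h1.contDiffAt (isOpen_ball.mem_nhds hx')).differentiableAt (by simp)
    rw [rcc_pull M hd, h4 x hx']
    have hn2 : ‖x‖ ^ 2 = ∑ m, x m ^ 2 := by
      rw [EuclideanSpace.norm_sq_eq]
      exact Finset.sum_congr rfl fun m _ => by rw [Real.norm_eq_abs, sq_abs]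
    have hij : inner ℝ (basisVec i) (basisVec j) = (if i = j then 1 else 0 : ℝ) := by
      rcases eq_or_ne i j with rfl | hij
      · simp [basisVec, EuclideanSpace.inner_single_right]
      · simp [basisVec, EuclideanSpace.inner_single_right, hij, hij.symm]
    have hx1 : ∀ k, inner ℝ x (basisVec k) = x k := by
      intro k
      simp [basisVec, EuclideanSpace.inner_single_right]
    rw [hn2, hij, hx1, hx1]
    ring

end Vale.Agent.P219.Co
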