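import Vale.Agent.P219.H817.T13

/-!
# The boundary area of a smooth domain is at most its perimeter
-/

open MeasureTheory Set Filter Topology Matrix Manifold
open scoped ENNReal ContDiff

namespace Vale.Agent.P219.Co

variable {n : ℕ}

theorem h907_zero_sub_closure (D : SmoothDomain n) : {x | D.ρ x = 0} ⊆ closure D.carrier := by
  intro x hx
  by_contra hc
  have hmin : IsLocalMin D.ρ x := by
    filter_upwards [isClosed_closure.isOpen_compl.mem_nhds hc] with y hy
    have h1 : ¬ D.ρ y < 0 := fun h => hy (subset_closure h)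
    rw [show D.ρ x = 0 from hx]
    exact not_lt.1 h1
  exact fderiv_ne_zero (smooth_differentiable_co D.smooth) (D.regular x hx) hmin.fderiv_eq_zero

theorem h907_zero_compact (D : SmoothDomain n) : IsCompact {x | D.ρ x = 0} := by
  have h1 : IsCompact (closure D.carrier) := (oldDomain D).bdd.isCompact_closure
  exact h1.of_isClosed_subset
    (isClosed_eq (ContDiff.continuous D.smooth) continuous_const) (h907_zero_sub_closure D)

/-- A smooth cut-off around a compact set. -/
theorem h907_bump {K U : Set (E n)} (hK : IsCompact K) (hU : IsOpen U) (hKU : K ⊆ U) :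
    ∃ η : E n → ℝ, ContDiff ℝ ∞ η ∧ HasCompactSupport η ∧ tsupport η ⊆ U ∧
      (∀ x ∈ K, η x = 1) ∧ ∀ x, η x ∈ Icc (0 : ℝ) 1 := by
  obtain ⟨L, hL, hKL, hLU⟩ := exists_compact_between hK hU hKU
  obtain ⟨f, h0, h1, h2⟩ := exists_contMDiffMap_zero_one_of_isClosed (n := ⊤) 𝓘(ℝ, E n)
    (s := (interior L)ᶜ) (t := K) isOpen_interior.isClosed_compl hK.isClosed
    (disjoint_left.2 fun x hx hx' => hx (hKL hx'))
  have hsup : tsupport f ⊆ L := by
    refine closure_minimal (fun x hx => ?_) hL.isClosed
    by_contra hxL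
    exact hx (h0 fun h => hxL (interior_subset h))
  refine ⟨f, f.contMDiff.contDiff, hL.of_isClosed_subset (isClosed_tsupport _) hsup,
    hsup.trans hLU, fun x hx => h1 hx, h2⟩

theorem h907_gradNorm_sq (M : RiemMetric n) (f : E n → ℝ) (x : E n) :
    0 ≤ (fun i => pd i f x) ⬝ᵥ (M.g x)⁻¹ *ᵥ fun i => pd i f x := by
  have h := ((M.pos x).inv.posSemidef.dotProduct_mulVec_nonneg (fun i => pd i f x))
  simpa using h

theorem h907_quad_pos (M : RiemMetric n) {f : E n → ℝ} {x : E n} (h : ∃ i, pd i f x ≠ 0) :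
    0 < (fun i => pd i f x) ⬝ᵥ (M.g x)⁻¹ *ᵥ fun i => pd i f x := by
  have hne : (fun i => pd i f x) ≠ 0 := by
    obtain ⟨i, hi⟩ := h
    exact fun h0 => hi (congrFun h0 i)
  have h1 := (M.pos x).inv.dotProduct_mulVec_pos hne
  simpa using h1

theorem area_le_perimeter_of (_hn : 2 ≤ n) (M : RiemMetric n) (D : SmoothDomain n)
    (hc : ∀ h : E n → ℝ, Continuous h → (∀ x, 0 ≤ h x) → HasCompactSupport h → ∀ B : ℝ≥0∞,
      B < ∫⁻ x in {x | D.ρ x = 0},
        ENNReal.ofReal (h x / ‖fderiv ℝ D.ρ x‖) ∂(μHE[n - 1] : Measure (E n)) →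
      ∀ᶠ ε in 𝓝[>] (0 : ℝ),
        B < ∫⁻ x, ENNReal.ofReal (ε⁻¹ * Vale.Agent.P219.Coarea.chi' (-D.ρ x / ε) * h x)) :
    riemArea M D ≤ perimeter M D.carrier := by
  have hρ : ContDiff ℝ ∞ D.ρ := D.smooth
  have hρd : Differentiable ℝ D.ρ := smooth_differentiable_co D.smooth
  set K : Set (E n) := {x | D.ρ x = 0} with hK
  set U : Set (E n) := {x | fderiv ℝ D.ρ x ≠ 0} with hU
  have hUo : IsOpen U := isOpen_ne_fun (hρ.continuous_fderiv (by simp)) continuous_const
  have hKU : K ⊆ U := fun x hx => fderiv_ne_zero hρd (D.regular x hx)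
  obtain ⟨η, hη, hηc, hηU, hη1, hηI⟩ := h907_bump (h907_zero_compact D) hUo hKU
  -- the covector and its square norm
  set p : E n → Fin n → ℝ := fun x i => pd i D.ρ x with hp
  set Qf : E n → ℝ := fun x => p x ⬝ᵥ (M.g x)⁻¹ *ᵥ p x with hQf
  have hQc : ContDiff ℝ ∞ Qf := by
    have h1 : Qf = fun x => ∑ i, p x i * ∑ j, (M.g x)⁻¹ i j * p x j := by
      funext x
      rfl
    rw [h1]
    refine ContDiff.sum fun i _ => (pd_contDiff hρ i).mul (ContDiff.sum fun j _ => ?_)
    exact (ginv_contDiff M i j).mul (pd_contDiff hρ j)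
  have hpdU : ∀ x ∈ U, ∃ i, pd i D.ρ x ≠ 0 := by
    intro x hx
    by_contra hcon
    push Not at hcon
    refine hx ?_
    have h1 := norm_fderiv_co hρd x
    simp only [hcon] at h1
    rw [← norm_eq_zero, h1]
    simp
  have hQpos : ∀ x ∈ U, 0 < Qf x := fun x hx => h907_quad_pos M (hpdU x hx)
  have hG : ∀ x, gradNorm M D.ρ x = √(Qf x) := fun x => rfl
  -- the normal field
  set q : E n → Fin n → ℝ := fun x => (M.g x)⁻¹ *ᵥ p x with hq
  have hqs : ∀ i, ContDiff ℝ ∞ fun x => q x i := by
    intro i
    have h1 : (fun x => q x i) = fun x => ∑ j, (M.g x)⁻¹ i j * p x j := by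
      funext x
      rfl
    rw [h1]
    exact ContDiff.sum fun j _ => (ginv_contDiff M i j).mul (pd_contDiff hρ j)
  set X : E n → Fin n → ℝ := fun x i => η x * (q x i / √(Qf x)) with hX
  have hηz : ∀ x, x ∉ tsupport η → η x = 0 := fun x hx => image_eq_zero_of_notMem_tsupport hx
  have hXs : ∀ i, ContDiff ℝ ∞ fun x => X x i := by
    intro i
    rw [contDiff_iff_contDiffAt]
    intro x
    by_cases hx : x ∈ tsupport η
    · have h1 : ContDiffAt ℝ ∞ (fun x => √(Qf x)) x :=
        hQc.contDiffAt.sqrt (hQpos x (hηU hx)).ne'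
      exact hη.contDiffAt.mul ((hqs i).contDiffAt.div h1 (Real.sqrt_pos.2 (hQpos x (hηU hx))).ne')
    · have h1 : (fun x => X x i) =ᶠ[𝓝 x] fun _ => (0 : ℝ) := by
        filter_upwards [(isClosed_tsupport η).isOpen_compl.mem_nhds hx] with y hy
        simp only [hX]
        rw [hηz y hy, zero_mul]
      exact contDiffAt_const.congr_of_eventuallyEq h1
  have hXc : HasCompactSupport X := by
    refine HasCompactSupport.intro hηc.isCompact fun x hx => ?_
    funext i
    simp only [hX]
    rw [hηz x hx, zero_mul]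
    rfl
  have hgq : ∀ x, q x ⬝ᵥ M.g x *ᵥ q x = Qf x := by
    intro x
    have h1 : M.g x *ᵥ q x = p x := by
      simp only [hq]
      rw [mulVec_mulVec, Matrix.mul_nonsing_inv _ ((M.pos x).isUnit.map Matrix.detMonoidHom |>
        fun h => h), one_mulVec]
    rw [h1, dotProduct_comm]
  have hT : TestField M X := by
    refine ⟨hXs, hXc, fun x => ?_⟩
    have h1 : X x = (η x / √(Qf x)) • q x := by
      funext i
      simp only [hX, Pi.smul_apply, smul_eq_mul]
      ring
    rw [h1, Matrix.mulVec_smul, dotProduct_smul, smul_dotProduct, hgq, smul_eq_mul, smul_eq_mul]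
    by_cases hx : x ∈ U
    · have h2 := hQpos x hx
      have h3 : η x / √(Qf x) * (η x / √(Qf x) * Qf x) = η x ^ 2 := by
        have h4 : √(Qf x) * √(Qf x) = Qf x := Real.mul_self_sqrt h2.le
        have h5 : √(Qf x) ≠ 0 := (Real.sqrt_pos.2 h2).ne'
        field_simp
        rw [sq (√(Qf x)), h4]
      rw [h3]
      have := hηI x
      nlinarith [this.1, this.2]
    · have h2 : η x = 0 := hηz x fun h => hx (hηU h)
      rw [h2]
      simp
  -- the flux density
  set Y : E n → Fin n → ℝ := fun x i => volDensity M x * X x i with hY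
  have hYs : ∀ i, ContDiff ℝ ∞ fun x => Y x i := fun i => (volDensity_contDiff M).mul (hXs i)
  have hYc : ∀ i, HasCompactSupport fun x => Y x i := by
    intro i
    refine HasCompactSupport.intro hηc.isCompact fun x hx => ?_
    simp only [hY, hX]
    rw [hηz x hx, zero_mul, mul_zero]
  set h : E n → ℝ := fun x => ∑ i, p x i * Y x i with hh
  have hhc : Continuous h := continuous_finsetSum _ fun i _ =>
    (pd_contDiff hρ i).continuous.mul (hYs i).continuous
  have hhval : ∀ x, h x = η x * (volDensity M x * √(Qf x)) := by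
    intro x
    have h1 : h x = volDensity M x * (η x / √(Qf x)) * (p x ⬝ᵥ q x) := by
      simp only [hh, hY, hX, dotProduct, Finset.mul_sum]
      refine Finset.sum_congr rfl fun i _ => ?_
      ring
    have h2 : p x ⬝ᵥ q x = Qf x := rfl
    rw [h1, h2]
    by_cases hx : x ∈ U
    · have h3 := hQpos x hx
      have h4 : √(Qf x) * √(Qf x) = Qf x := Real.mul_self_sqrt h3.le
      have h5 : √(Qf x) ≠ 0 := (Real.sqrt_pos.2 h3).ne'
      field_simp
      rw [sq (√(Qf x)), h4]
    · have h3 : η x = 0 := hηz x fun h => hx (hηU h)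
      rw [h3]
      simp
  have hvol0 : ∀ x, 0 ≤ volDensity M x := fun x => Real.sqrt_nonneg _
  have hh0 : ∀ x, 0 ≤ h x := fun x => by
    rw [hhval]
    exact mul_nonneg (hηI x).1 (mul_nonneg (hvol0 x) (Real.sqrt_nonneg _))
  have hhcs : HasCompactSupport h := by
    refine HasCompactSupport.intro hηc.isCompact fun x hx => ?_
    rw [hhval, hηz x hx, zero_mul]
  -- the area as an integral of `h`
  have harea : riemArea M D = ∫⁻ x in K,
      ENNReal.ofReal (h x / ‖fderiv ℝ D.ρ x‖) ∂(μHE[n - 1] : Measure (E n)) := by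
    unfold riemArea
    refine setLIntegral_congr_fun (h907_zero_compact D).isClosed.measurableSet fun x hx => ?_
    rw [hhval, hη1 x hx, one_mul, hG, norm_fderiv_co hρd]
  refine le_of_forall_lt fun B hB => ?_
  obtain ⟨B', hBB', hB'⟩ := exists_between hB
  rw [harea] at hB'
  have hev := hc h hhc hh0 hhcs B' hB'
  -- the approximate fluxes
  set divY : E n → ℝ := fun x => ∑ i, pd i (fun y => Y y i) x with hdivY
  have hdc : Continuous divY := continuous_finsetSum _ fun i _ => (pd_contDiff (hYs i) i).continuous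
  have hdcs : HasCompactSupport divY := by
    refine HasCompactSupport.intro hηc.isCompact fun x hx => ?_
    refine Finset.sum_eq_zero fun i _ => ?_
    refine pd_zero_of (isClosed_tsupport η) (fun y hy => ?_) i hx
    simp only [hY, hX]
    rw [hηz y hy, zero_mul, mul_zero]
  have hdI : Integrable divY (volume : Measure (E n)) := hdc.integrable_of_hasCompactSupport hdcs
  set Fe : ℝ → E n → ℝ := fun ε => Vale.Agent.P219.Feps (oldDomain D) ε with hFe
  have hFs : ∀ ε, ContDiff ℝ ∞ (Fe ε) := fun ε => Vale.Agent.P219.Feps_smooth (oldDomain D) ε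
  have hflux : ∀ ε : ℝ, ∫ x, Fe ε x * divY x =
      ∫ x, ε⁻¹ * Vale.Agent.P219.Coarea.chi' (-D.ρ x / ε) * h x := by
    intro ε
    have hpdF : ∀ i x, fderiv ℝ (Fe ε) x (basisVec i) =
        -(ε⁻¹ * Vale.Agent.P219.Coarea.chi' (-D.ρ x / ε)) * p x i := by
      intro i x
      have h1 : fderiv ℝ (Fe ε) x = (-(ε⁻¹ * Vale.Agent.P219.Coarea.chi' (-D.ρ x / ε))) •
          fderiv ℝ D.ρ x := Vale.Agent.P219.Feps_fderiv (oldDomain D) ε x
      rw [h1]
      simp only [hp]
      rw [pd_eq (hρd x)]
      rfl
    have hpdY : ∀ i x, pd i (fun y => Y y i) x = fderiv ℝ (fun y => Y y i) x (basisVec i) :=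
      fun i x => pd_eq ((hYs i).differentiable (by simp) x) i
    have hfdc : ∀ i, Continuous fun x => fderiv ℝ (fun y => Y y i) x (basisVec i) := by
      intro i
      have h1 : (fun x => fderiv ℝ (fun y => Y y i) x (basisVec i)) = pd i (fun y => Y y i) :=
        funext fun x => (hpdY i x).symm
      rw [h1]
      exact (pd_contDiff (hYs i) i).continuous
    have hfFc : ∀ i, Continuous fun x => fderiv ℝ (Fe ε) x (basisVec i) := fun i =>
      ((hFs ε).continuous_fderiv (by simp)).clm_apply continuous_const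
    have hint1 : ∀ i, Integrable (fun x => fderiv ℝ (Fe ε) x (basisVec i) * Y x i)
        (volume : Measure (E n)) := fun i =>
      ((hfFc i).mul (hYs i).continuous).integrable_of_hasCompactSupport (hYc i).mul_left
    have hint2 : ∀ i, Integrable (fun x => Fe ε x * fderiv ℝ (fun y => Y y i) x (basisVec i))
        (volume : Measure (E n)) := by
      intro i
      have h2 : HasCompactSupport fun x => fderiv ℝ (fun y => Y y i) x (basisVec i) := by
        have h1 : (fun x => fderiv ℝ (fun y => Y y i) x (basisVec i)) = pd i (fun y => Y y i) :=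
          funext fun x => (hpdY i x).symm
        rw [h1]
        exact pd_compact (hYc i) i
      exact ((hFs ε).continuous.mul (hfdc i)).integrable_of_hasCompactSupport h2.mul_left
    have hint3 : ∀ i, Integrable (fun x => Fe ε x * Y x i) (volume : Measure (E n)) := fun i =>
      ((hFs ε).continuous.mul (hYs i).continuous).integrable_of_hasCompactSupport (hYc i).mul_left
    have hibp : ∀ i, ∫ x, Fe ε x * pd i (fun y => Y y i) x =
        ∫ x, ε⁻¹ * Vale.Agent.P219.Coarea.chi' (-D.ρ x / ε) * (p x i * Y x i) := by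
      intro i
      simp only [hpdY]
      rw [integral_mul_fderiv_eq_neg_fderiv_mul_of_integrable (hint1 i) (hint2 i) (hint3 i)
        (fun x _ => (hFs ε).differentiable (by simp) x)
        (fun x _ => (hYs i).differentiable (by simp) x), ← integral_neg]
      refine integral_congr_ae (Eventually.of_forall fun x => ?_)
      simp only
      rw [hpdF]
      ring
    have hint4 : ∀ i, Integrable (fun x => Fe ε x * pd i (fun y => Y y i) x)
        (volume : Measure (E n)) := fun i => by
      simpa only [hpdY] using hint2 i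
    have hchi : Continuous fun x : E n => ε⁻¹ * Vale.Agent.P219.Coarea.chi' (-D.ρ x / ε) :=
      continuous_const.mul (Vale.Agent.P219.Coarea.continuous_chi'.comp
        (hρ.continuous.neg.div_const ε))
    have hint5 : ∀ i, Integrable (fun x => ε⁻¹ * Vale.Agent.P219.Coarea.chi' (-D.ρ x / ε) *
        (p x i * Y x i)) (volume : Measure (E n)) := fun i =>
      (hchi.mul ((pd_contDiff hρ i).continuous.mul
        (hYs i).continuous)).integrable_of_hasCompactSupport ((hYc i).mul_left.mul_left)
    have e1 : ∀ x, Fe ε x * divY x = ∑ i, Fe ε x * pd i (fun y => Y y i) x := fun x => by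
      rw [← Finset.mul_sum]
    have e2 : ∀ x, ε⁻¹ * Vale.Agent.P219.Coarea.chi' (-D.ρ x / ε) * h x =
        ∑ i, ε⁻¹ * Vale.Agent.P219.Coarea.chi' (-D.ρ x / ε) * (p x i * Y x i) := fun x => by
      rw [← Finset.mul_sum]
    simp only [e1, e2]
    rw [integral_finsetSum _ fun i _ => hint4 i, integral_finsetSum _ fun i _ => hint5 i]
    exact Finset.sum_congr rfl fun i _ => hibp i
  -- the limit
  have hlim : Tendsto (fun ε : ℝ => ∫ x, Fe ε x * divY x) (𝓝[>] 0)
      (𝓝 (∫ x, D.carrier.indicator (fun _ => (1 : ℝ)) x * divY x)) := by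
    refine tendsto_integral_filter_of_dominated_convergence (fun x => ‖divY x‖) ?_ ?_ hdI.norm ?_
    · exact Eventually.of_forall fun ε =>
        ((hFs ε).continuous.mul hdc).aestronglyMeasurable
    · refine Eventually.of_forall fun ε => Eventually.of_forall fun x => ?_
      rw [norm_mul]
      have h1 : ‖Fe ε x‖ ≤ 1 := by
        rw [Real.norm_eq_abs, abs_of_nonneg (Vale.Agent.P219.Feps_nonneg (oldDomain D) ε x)]
        exact Vale.Agent.P219.Feps_le_one (oldDomain D) ε x
      exact mul_le_of_le_one_left (norm_nonneg _) h1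
    · refine Eventually.of_forall fun x => ?_
      exact (Vale.Agent.P219.Feps_tendsto (oldDomain D) x).mul_const _
  have hopen : IsOpen D.carrier := isOpen_lt hρ.continuous continuous_const
  have hfin : ∫ x, D.carrier.indicator (fun _ => (1 : ℝ)) x * divY x =
      ∫ x in D.carrier, divg M X x * volDensity M x ∂leb n := by
    rw [leb, ← integral_indicator hopen.measurableSet]
    refine integral_congr_ae (Eventually.of_forall fun x => ?_)
    simp only
    by_cases hx : x ∈ D.carrier
    · rw [indicator_of_mem hx, indicator_of_mem hx, one_mul]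
      unfold divg
      have hv : volDensity M x ≠ 0 := (Real.sqrt_pos.2 (M.pos x).det_pos).ne'
      simp only [hdivY, hY]
      field_simp
    · rw [indicator_of_notMem hx, indicator_of_notMem hx, zero_mul]
  rw [hfin] at hlim
  have hlim' : Tendsto (fun ε : ℝ => ENNReal.ofReal (∫ x, Fe ε x * divY x)) (𝓝[>] 0)
      (𝓝 (ENNReal.ofReal (∫ x in D.carrier, divg M X x * volDensity M x ∂leb n))) :=
    (ENNReal.continuous_ofReal.tendsto _).comp hlim
  have hge : B' ≤ ENNReal.ofReal (∫ x in D.carrier, divg M X x * volDensity M x ∂leb n) := by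
    refine ge_of_tendsto hlim' ?_
    filter_upwards [hev, self_mem_nhdsWithin] with ε hε hε0
    have hε0 : 0 < ε := hε0
    rw [hflux, ofReal_integral_eq_lintegral_ofReal]
    · exact hε.le
    · have hchi : Continuous fun x : E n => ε⁻¹ * Vale.Agent.P219.Coarea.chi' (-D.ρ x / ε) :=
        continuous_const.mul (Vale.Agent.P219.Coarea.continuous_chi'.comp
          (hρ.continuous.neg.div_const ε))
      exact (hchi.mul hhc).integrable_of_hasCompactSupport hhcs.mul_left
    · refine Eventually.of_forall fun x => ?_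
      exact mul_nonneg (mul_nonneg (inv_nonneg.2 hε0.le)
        (Vale.Agent.P219.Coarea.chi'_nonneg _)) (hh0 x)
  refine lt_of_lt_of_le hBB' (hge.trans ?_)
  unfold perimeter
  exact le_iSup₂_of_le X hT le_rfl

end Vale.Agent.P219.Co
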